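import Vale.Agent.P237.Quant.TailData.N81.tailN81N0Part0
import Vale.Agent.P237.Quant.TailData.N81.tailN81N0Part1
import Vale.Agent.P237.Quant.TailData.N81.tailN81N0Part2
import Vale.Agent.P237.Quant.TailData.N81.tailN81N0Part3
import Vale.Agent.P237.Quant.TailData.N81.tailN81N0Part4
import Vale.Agent.P237.Quant.TailData.N81.tailN81N0Part5
import Vale.Agent.P237.Quant.TailData.N81.tailN81N0Part6

/-!
Tail calibration tailN81N0 in dimension 81. The check. Generated data, checked by the kernel.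
-/

set_option maxRecDepth 100000
set_option linter.all false

namespace Vale.Agent.P237.Quant.TailData

open TailCert


/-- The calibration. -/
noncomputable def tailN81N0 : Cfg :=
  tailN81N0Base.withIvals (List.flatten [tailN81N0L0, tailN81N0L1, tailN81N0L2, tailN81N0L3, tailN81N0L4, tailN81N0L5, tailN81N0L6, tailN81N0L7, tailN81N0L8, tailN81N0L9, tailN81N0L10, tailN81N0L11, tailN81N0L12, tailN81N0L13, tailN81N0L14, tailN81N0L15, tailN81N0L16, tailN81N0L17, tailN81N0L18, tailN81N0L19, tailN81N0L20, tailN81N0L21, tailN81N0L22, tailN81N0L23, tailN81N0L24, tailN81N0L25, tailN81N0L26])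

theorem tailN81N0_parts : [tailN81N0L0, tailN81N0L1, tailN81N0L2, tailN81N0L3, tailN81N0L4, tailN81N0L5, tailN81N0L6, tailN81N0L7, tailN81N0L8, tailN81N0L9, tailN81N0L10, tailN81N0L11, tailN81N0L12, tailN81N0L13, tailN81N0L14, tailN81N0L15, tailN81N0L16, tailN81N0L17, tailN81N0L18, tailN81N0L19, tailN81N0L20, tailN81N0L21, tailN81N0L22, tailN81N0L23, tailN81N0L24, tailN81N0L25, tailN81N0L26].Forall fun l => tailN81N0Base.partUsed tailN81N0Used l = true := by
  simp only [List.forall_cons, List.Forall]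
  exact ⟨tailN81N0L0_ok, tailN81N0L1_ok, tailN81N0L2_ok, tailN81N0L3_ok, tailN81N0L4_ok, tailN81N0L5_ok, tailN81N0L6_ok, tailN81N0L7_ok, tailN81N0L8_ok, tailN81N0L9_ok, tailN81N0L10_ok, tailN81N0L11_ok, tailN81N0L12_ok, tailN81N0L13_ok, tailN81N0L14_ok, tailN81N0L15_ok, tailN81N0L16_ok, tailN81N0L17_ok, tailN81N0L18_ok, tailN81N0L19_ok, tailN81N0L20_ok, tailN81N0L21_ok, tailN81N0L22_ok, tailN81N0L23_ok, tailN81N0L24_ok, tailN81N0L25_ok, tailN81N0L26_ok⟩

theorem tailN81N0_check : tailN81N0.check = true :=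
  Cfg.check_of_parts (by decide +kernel) tailN81N0_parts

end Vale.Agent.P237.Quant.TailData
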